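import Vale.Agent.P022.H749.App3
import Vale.Agent.P022.H545.RCore
import Vale.Agent.P022.H23.Nrm
import Vale.Agent.P022.H626.Unit
import Vale.Agent.P022.H472.Lit4

/-!
# [APP3] for a real quadratic field, in the letters of `H545.RCore` (`RApp`) and `H472.Lit4`
-/

set_option linter.unusedSectionVars false

open scoped NumberField

namespace Vale.Agent.P022.H749

open Polynomial

section odd

variable {A : Type} [CommRing A] {E : Type} [NontriviallyNormedField E] [NormedAlgebra ℚ_[2] E]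
  [IsUltrametricDist E] {m : ℕ}

theorem Cop.neg' {a : A} (h : Cop m a) : Cop m (-a) := IsCoprime.neg_left h

theorem Dat.Nm_neg (D : Dat A E m) (a : A) : D.Nm (-a) = D.Nm a := by
  have h1 : D.Nm (((-1 : ℤ) : A) * a) = D.Nm ((-1 : ℤ) : A) * D.Nm a := D.Nm_mul _ _
  rw [D.Nm_int] at h1
  simpa using h1

/-- **[APP3]** with odd functions -/
theorem Dat.app3_odd (D : Dat A E m) (hm : Odd m) {N : ℕ} (hmN : m ∣ N)
    (hodd : ∀ a, Cop m a → D.Ψ (-a) = -D.Ψ a) {χ₀ χ₁ : ℤ → ℤ}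
    (h₀ : Chr8 χ₀) (h₁ : Chr8 χ₁) (e₀ : χ₀ (-1) = 1) (e₁ : χ₁ (-1) = -1) :
    ∃ χ, (χ = χ₀ ∨ χ = χ₁) ∧ ∀ ε : ℝ, 0 < ε → ∃ (r n : ℕ) (f : Fin n → A → ℤ)
      (g : Fin n → E[X]), (∀ i, D.Fam N r χ (f i) ∧ ∀ a, f i (-a) = -f i a) ∧ ∀ a, Cop m a →
        ‖D.Ψ a - ∑ i, (f i a : E) * (g i).eval (D.Nm a : E)‖ < ε := by
  obtain ⟨χ, hχ, H⟩ := D.app3 hm hmN h₀ h₁ e₀ e₁
  refine ⟨χ, hχ, fun ε hε => ?_⟩
  obtain ⟨r, n, f, g, hf, hg⟩ := H (ε / 2) (by positivity)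
  have two0 : (2 : E) ≠ 0 := by
    have := Dat.nrm_two (E := E)
    intro h0
    rw [h0, norm_zero] at this
    norm_num at this
  refine ⟨r, n, fun i a => f i a - f i (-a), fun i => C (2 : E)⁻¹ * g i, fun i => ⟨?_, ?_⟩, ?_⟩
  · obtain ⟨p1, p2, p3, p4⟩ := hf i
    refine ⟨fun α β => ?_, fun d hd hd1 α => ?_, fun η hη α => ?_, fun α hα => ?_⟩ <;>
      beta_reduce
    · have : -(α + ((2 ^ r * m : ℕ) : A) * β) = -α + ((2 ^ r * m : ℕ) : A) * (-β) := by ring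
      rw [p1, this, p1]
    · have : -((d : A) * α) = d * (-α) := by ring
      rw [p2 d hd hd1, this, p2 d hd hd1]
      ring
    · have : -(((η : Aˣ) : A) * α) = ((η : Aˣ) : A) * (-α) := by ring
      rw [p3 η hη, this, p3 η hη]
    · rw [p4 α hα, p4 (-α) fun h => hα (by simpa using h.neg'), sub_zero]
  · intro a
    beta_reduce
    rw [neg_neg]
    ring
  · intro a ha
    have h1 := hg a ha
    have h2 := hg (-a) ha.neg'
    rw [hodd a ha, D.Nm_neg] at h2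
    have h3 : D.Ψ a - ∑ i, ((f i a - f i (-a) : ℤ) : E) * (C (2 : E)⁻¹ * g i).eval (D.Nm a : E) =
        (2 : E)⁻¹ * ((D.Ψ a - ∑ i, (f i a : E) * (g i).eval (D.Nm a : E)) -
          (-D.Ψ a - ∑ i, (f i (-a) : E) * (g i).eval (D.Nm a : E))) := by
      have h4 : ∑ i, ((f i a - f i (-a) : ℤ) : E) * (C (2 : E)⁻¹ * g i).eval (D.Nm a : E) =
          (2 : E)⁻¹ * (∑ i, (f i a : E) * (g i).eval (D.Nm a : E) -
            ∑ i, (f i (-a) : E) * (g i).eval (D.Nm a : E)) := by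
        rw [← Finset.sum_sub_distrib, Finset.mul_sum]
        refine Finset.sum_congr rfl fun i _ => ?_
        rw [eval_mul, eval_C]
        push_cast
        ring
      rw [h4]
      have h5 : D.Ψ a = (2 : E)⁻¹ * (2 * D.Ψ a) := by
        rw [← mul_assoc, inv_mul_cancel₀ two0, one_mul]
      linear_combination h5
    rw [h3, norm_mul, norm_inv, Dat.nrm_two]
    have h4 := Dat.nrm_sub_lt h1 h2
    norm_num
    linarith

end odd

/-! ### the real quadratic field -/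

section real

open NumberField Module Ideal
open Vale.Agent.P022.H23 (TP NP)

variable {K : Type} [Field K] [NumberField K]

theorem norm_int_eq (h2 : finrank ℚ K = 2) (d : ℤ) : Algebra.norm ℤ ((d : ℤ) : 𝓞 K) = d ^ 2 := by
  have h := Algebra.norm_algebraMap (S := 𝓞 K) d
  rw [RingOfIntegers.rank, h2] at h
  simpa using h

theorem norm_cong (n : ℕ) (a b : 𝓞 K) (h : (n : 𝓞 K) ∣ a - b) :
    (n : ℤ) ∣ Algebra.norm ℤ a - Algebra.norm ℤ b := by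
  classical
  obtain ⟨c, hc⟩ := h
  let B := Module.Free.chooseBasis ℤ (𝓞 K)
  rw [Algebra.norm_eq_matrix_det B, Algebra.norm_eq_matrix_det B,
    ← ZMod.intCast_eq_intCast_iff_dvd_sub]
  have h1 : ∀ x : 𝓞 K, (((Algebra.leftMulMatrix B x).det : ℤ) : ZMod n) =
      ((Algebra.leftMulMatrix B x).map (Int.castRingHom (ZMod n))).det := by
    intro x
    rw [← RingHom.mapMatrix_apply, ← RingHom.map_det]
    rfl
  rw [h1, h1]
  have h2 : a = b + (n : ℤ) • c := by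
    have : a = b + (n : 𝓞 K) * c := by rw [← hc]; ring
    rw [this]; simp
  congr 1
  rw [h2, map_add, map_smul]
  ext i j
  rw [Matrix.map_apply, Matrix.map_apply, Matrix.add_apply, Matrix.smul_apply, smul_eq_mul,
    map_add, map_mul]
  simp

/-- `sgn(σ₁ α) ψ((α))` -/
noncomputable def Psi {E : Type} [Field E] (σ₁ : K →+* ℝ) (ψ : Ideal (𝓞 K) →* E) (α : 𝓞 K) : E :=
  (if 0 < σ₁ (α : K) then 1 else -1) * ψ (span {α})


section

variable {E : Type} [NontriviallyNormedField E] [NormedAlgebra ℚ_[2] E] [IsUltrametricDist E]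

theorem cop_ne {m : ℕ} {α : 𝓞 K} (h : Cop m α) : α ≠ 0 := by
  rintro rfl
  exact H23.not_unit_two_mul m (isCoprime_zero_left.1 h)

theorem sgn_mul (σ : K →+* ℝ) {a b : 𝓞 K} (ha : a ≠ 0) (hb : b ≠ 0) :
    (if 0 < σ ((a * b : 𝓞 K) : K) then (1 : E) else -1) =
      (if 0 < σ (a : K) then 1 else -1) * (if 0 < σ (b : K) then 1 else -1) := by
  have h : σ ((a * b : 𝓞 K) : K) = σ (a : K) * σ (b : K) := by simp
  have ha' := H626.emb_ne σ ha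
  have hb' := H626.emb_ne σ hb
  rw [h]
  rcases lt_or_gt_of_ne ha' with h1 | h1 <;> rcases lt_or_gt_of_ne hb' with h3 | h3
  · rw [if_pos (mul_pos_of_neg_of_neg h1 h3), if_neg h1.not_gt, if_neg h3.not_gt]; norm_num
  · rw [if_neg (mul_neg_of_neg_of_pos h1 h3).not_gt, if_neg h1.not_gt, if_pos h3]; norm_num
  · rw [if_neg (mul_neg_of_pos_of_neg h1 h3).not_gt, if_pos h1, if_neg h3.not_gt]; norm_num
  · rw [if_pos (mul_pos h1 h3), if_pos h1, if_pos h3]; norm_num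

theorem sgn_neg (σ : K →+* ℝ) {a : 𝓞 K} (ha : a ≠ 0) :
    (if 0 < σ ((-a : 𝓞 K) : K) then (1 : E) else -1) = -(if 0 < σ (a : K) then 1 else -1) := by
  have h : σ ((-a : 𝓞 K) : K) = -σ (a : K) := by simp
  have ha' := H626.emb_ne σ ha
  rw [h]
  rcases lt_or_gt_of_ne ha' with h1 | h1
  · rw [if_pos (neg_pos.2 h1), if_neg h1.not_gt, neg_neg]
  · rw [if_neg (by linarith), if_pos h1]

/-- the totally positive units -/
def UP (K : Type) [Field K] [NumberField K] : Subgroup (𝓞 K)ˣ where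
  carrier := {η | TP (η : 𝓞 K)}
  mul_mem' := fun {a b} ha hb => by
    show TP ((a * b : (𝓞 K)ˣ) : 𝓞 K)
    rw [Units.val_mul]
    exact TP.mul ha hb
  one_mem' := TP.one
  inv_mem' := fun {a} ha => by
    refine ⟨Units.ne_zero _, fun σ => ?_⟩
    have h1 : σ ((a : 𝓞 K) : K) * σ (((a⁻¹ : (𝓞 K)ˣ) : 𝓞 K) : K) = 1 := by
      rw [← map_mul, ← H23.cmul, Units.mul_inv]
      simp
    have h2 : 0 < σ ((a : 𝓞 K) : K) := ha.2 σ
    by_contra h3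
    push Not at h3
    nlinarith

theorem pm_sub {x s : E} (hs : s = 1 ∨ s = -1) : ‖s * x - 1‖ = ‖x - s‖ := by
  rcases hs with rfl | rfl
  · rw [one_mul]
  · have : (-1 : E) * x - 1 = -(x - -1) := by ring
    rw [this, norm_neg]

/-- the data for a real quadratic field -/
noncomputable def datR (h2 : finrank ℚ K = 2) {σ₁ σ₂ : K →+* ℝ} (hne : σ₁ ≠ σ₂) {m : ℕ}
    (hm : m ≠ 0) (ψ : Ideal (𝓞 K) →* E) (hψ : R.ContR σ₁ m ψ) : Dat (𝓞 K) E m where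
  Nm := fun a => Algebra.norm ℤ a
  U := UP K
  Ψ := Psi σ₁ ψ
  Nm_mul := fun a b => map_mul _ a b
  Nm_int := norm_int_eq h2
  Nm_cong := norm_cong
  Nm_U := fun η hη => by
    have h1 := H626.unit_one h2 hne η (hη.2 σ₁) (hη.2 σ₂)
    rw [H626.emb_norm h2 hne] at h1
    exact_mod_cast h1
  fin := fun n hn => Ideal.finiteQuotientOfFreeOfNeBot _ (by
    rw [Ne, Ideal.span_singleton_eq_bot]
    exact_mod_cast hn)
  mul := fun a b ha hb => by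
    simp only [Psi]
    rw [sgn_mul σ₁ (cop_ne ha) (cop_ne hb), ← Ideal.span_singleton_mul_span_singleton, map_mul]
    ring
  nrm := fun a ha => by
    have h1 : ‖ψ (span {a})‖ = 1 := by
      refine H23.rnrm hm ψ (fun ε hε => ?_) ((Ideal.isCoprime_span_singleton_iff _ _).2 ha)
      obtain ⟨M, hM⟩ := hψ ε hε
      refine ⟨M, fun α hα h => ?_⟩
      have := hM α h
      rwa [if_pos (hα.2 σ₁)] at this
    simp only [Psi]
    rw [norm_mul, h1, mul_one]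
    split_ifs <;> simp
  one_U := fun η hη => by
    simp only [Psi]
    rw [if_pos (hη.2 σ₁), one_mul, Ideal.span_singleton_eq_top.2 η.isUnit, ← Ideal.one_eq_top,
      map_one]
  cont := fun ε hε => by
    obtain ⟨M, hM⟩ := hψ ε hε
    refine ⟨M, fun a ha => ?_⟩
    simp only [Psi]
    rw [pm_sub (by split_ifs <;> simp)]
    exact hM a ha

/-- the class of functions: the integer valued functions on `𝓞 K`, periodic modulo `2 ^ r * m`,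
with character `χ` under the odd integers `≡ 1` mod `N`, invariant under the totally positive
units, odd, and supported on the elements prime to `2 m` -/
def FamR (K : Type) [Field K] [NumberField K] (m N : ℕ) (χ : ℤ → ℤ) : Set (𝓞 K → ℤ) :=
  {f | (∃ r, X.Eqv m r N χ f) ∧ (∀ η : (𝓞 K)ˣ, TP (η : 𝓞 K) → ∀ α, f (η * α) = f α) ∧
    (∀ α, f (-α) = -f α) ∧ ∀ α, ¬ IsCoprime α ((2 * m : ℕ) : 𝓞 K) → f α = 0}

/-- **[APP3]**, all elements prime to `2m` -/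
theorem rapp_all (h2 : finrank ℚ K = 2) {σ₁ σ₂ : K →+* ℝ} (hne : σ₁ ≠ σ₂) {m : ℕ}
    (hm : Odd m) {N : ℕ} (hmN : m ∣ N) (ψ : Ideal (𝓞 K) →* E) (hψ : R.ContR σ₁ m ψ)
    {χ₀ χ₁ : ℤ → ℤ} (h₀ : Chr8 χ₀) (h₁ : Chr8 χ₁) (e₀ : χ₀ (-1) = 1) (e₁ : χ₁ (-1) = -1) :
    ∃ χ, (χ = χ₀ ∨ χ = χ₁) ∧ ∀ ε : ℝ, 0 < ε → ∃ (r n : ℕ) (f : Fin n → 𝓞 K → ℤ)
      (g : Fin n → E[X]), (∀ i, f i ∈ FamR K m N χ ∧ X.Eqv m r N χ (f i)) ∧
        ∀ α : 𝓞 K, IsCoprime α ((2 * m : ℕ) : 𝓞 K) →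
        ‖(if 0 < σ₁ (α : K) then 1 else -1) * ψ (span {α}) -
          ∑ i, (f i α : E) * (g i).eval ((Algebra.norm ℤ α : ℤ) : E)‖ < ε := by
  obtain ⟨χ, hχ, H⟩ := (datR h2 hne hm.pos.ne' ψ hψ).app3_odd hm hmN (fun a ha => by
    show Psi σ₁ ψ (-a) = -Psi σ₁ ψ a
    simp only [Psi]
    rw [sgn_neg σ₁ (cop_ne ha), Ideal.span_singleton_neg]
    ring) h₀ h₁ e₀ e₁
  refine ⟨χ, hχ, fun ε hε => ?_⟩
  obtain ⟨r, n, f, g, hf, hg⟩ := H ε hε
  refine ⟨r, n, f, g, fun i => ?_, fun α hα => hg α hα⟩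
  obtain ⟨⟨p1, p2, p3, p4⟩, p5⟩ := hf i
  have h : X.Eqv m r N χ (f i) := ⟨p1, p2⟩
  exact ⟨⟨⟨r, h⟩, fun η hη α => p3 η hη α, p5, p4⟩, h⟩

/-- **[APP3]** in the letters of `H545.RCore` -/
theorem rapp (h2 : finrank ℚ K = 2) {σ₁ σ₂ : K →+* ℝ} (hne : σ₁ ≠ σ₂) {m : ℕ}
    (hm : Odd m) {N : ℕ} (hmN : m ∣ N) (ψ : Ideal (𝓞 K) →* E) (hψ : R.ContR σ₁ m ψ)
    {χ₀ χ₁ : ℤ → ℤ} (h₀ : Chr8 χ₀) (h₁ : Chr8 χ₁) (e₀ : χ₀ (-1) = 1) (e₁ : χ₁ (-1) = -1) :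
    ∃ χ, (χ = χ₀ ∨ χ = χ₁) ∧ H545.RApp m ψ (FamR K m N χ) := by
  obtain ⟨χ, hχ, H⟩ := rapp_all h2 hne hm hmN ψ hψ h₀ h₁ e₀ e₁
  refine ⟨χ, hχ, fun ε hε => ?_⟩
  obtain ⟨r, n, f, g, hf, hg⟩ := H ε hε
  refine ⟨n, f, g, fun i => (hf i).1, fun α hα hc => ?_⟩
  have := hg α hc
  rwa [if_pos (hα.2 σ₁), one_mul] at this

theorem chr8_chi4 : Chr8 R.chi4 where
  pm := fun d hd => by
    have h : ∀ x : ZMod 4, x = 1 ∨ x = 3 → ZMod.χ₄ x = 1 ∨ ZMod.χ₄ x = -1 := by decide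
    refine h _ ?_
    obtain ⟨k, rfl⟩ := hd
    have h1 : ∀ y : ZMod 4, 2 * y + 1 = 1 ∨ 2 * y + 1 = 3 := by decide
    simpa using h1 (k : ZMod 4)
  per := fun d => by
    unfold R.chi4
    congr 1
    push_cast
    have : (8 : ZMod 4) = 0 := rfl
    rw [this, add_zero]
  mul := fun d d' _ _ => by
    unfold R.chi4
    rw [Int.cast_mul, map_mul]

theorem Chr8.mul' {χ χ' : ℤ → ℤ} (h : Chr8 χ) (h' : Chr8 χ') : Chr8 (fun d => χ d * χ' d) where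
  pm := fun d hd => by
    rcases h.pm d hd with h1 | h1 <;> rcases h'.pm d hd with h2 | h2 <;> simp [h1, h2]
  per := fun d => by rw [h.per, h'.per]
  mul := fun d d' hd hd' => by rw [h.mul d d' hd hd', h'.mul d d' hd hd']; ring

theorem chr8_pow {χ : ℤ → ℤ} (h : Chr8 χ) (par : ℕ) :
    Chr8 (fun d => χ d * R.chi4 d ^ par) := by
  induction par with
  | zero => simpa using h
  | succ n ih =>
    have : (fun d => χ d * R.chi4 d ^ (n + 1)) = fun d => (χ d * R.chi4 d ^ n) * R.chi4 d := by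
      funext d; ring
    rw [this]
    exact ih.mul' chr8_chi4

/-- **[APP3]** with the two classes `χ`, `χ χ₋₄` -/
theorem rapp_par (h2 : finrank ℚ K = 2) {σ₁ σ₂ : K →+* ℝ} (hne : σ₁ ≠ σ₂) {m : ℕ}
    (hm : Odd m) {N : ℕ} (hmN : m ∣ N) (ψ : Ideal (𝓞 K) →* E) (hψ : R.ContR σ₁ m ψ)
    {χ : ℤ → ℤ} (h : Chr8 χ) :
    ∃ par : ℕ, (par = 0 ∨ par = 1) ∧
      H545.RApp m ψ (FamR K m N (fun d => χ d * R.chi4 d ^ par)) := by
  have c1 : R.chi4 (-1) = -1 := by decide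
  rcases h.pm (-1) (by decide) with h1 | h1
  · obtain ⟨χ', h3 | h3, h4⟩ := rapp h2 hne hm hmN ψ hψ (chr8_pow h 0) (chr8_pow h 1)
      (by rw [c1, h1]; rfl) (by rw [c1, h1]; rfl)
    · exact ⟨0, Or.inl rfl, h3 ▸ h4⟩
    · exact ⟨1, Or.inr rfl, h3 ▸ h4⟩
  · obtain ⟨χ', h3 | h3, h4⟩ := rapp h2 hne hm hmN ψ hψ (chr8_pow h 1) (chr8_pow h 0)
      (by rw [c1, h1]; rfl) (by rw [c1, h1]; rfl)
    · exact ⟨1, Or.inr rfl, h3 ▸ h4⟩
    · exact ⟨0, Or.inl rfl, h3 ▸ h4⟩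

theorem RApp_mono {m : ℕ} {ψ : Ideal (𝓞 K) →* E} {𝓕 𝓖 : Set (𝓞 K → ℤ)}
    (h : H545.RApp m ψ 𝓕) (hs : 𝓕 ⊆ 𝓖) : H545.RApp m ψ 𝓖 := fun ε hε => by
  obtain ⟨n, f, g, hf, hg⟩ := h ε hε
  exact ⟨n, f, g, fun i => hs (hf i), hg⟩

/-- **[RAPP]** with both parities in one class (the class of the blueprint of helper353, with the
oddness condition of helper545) -/
theorem RAPP (h2 : finrank ℚ K = 2) {σ₁ σ₂ : K →+* ℝ} (hne : σ₁ ≠ σ₂) {m : ℕ}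
    (hm : Odd m) {N : ℕ} (hmN : m ∣ N) (ψ : Ideal (𝓞 K) →* E) (hψ : R.ContR σ₁ m ψ)
    {χ : ℤ → ℤ} (h : Chr8 χ) :
    H545.RApp m ψ {f | (∃ r par, X.Eqv m r N (fun d => χ d * R.chi4 d ^ par) f) ∧
      (∀ η : (𝓞 K)ˣ, TP (η : 𝓞 K) → ∀ α, f (η * α) = f α) ∧ ∀ α, f (-α) = -f α} := by
  obtain ⟨par, -, h1⟩ := rapp_par h2 hne hm hmN ψ hψ h
  refine RApp_mono h1 ?_
  rintro f ⟨⟨r, h3⟩, h4, h5, -⟩
  exact ⟨⟨r, par, h3⟩, h4, h5⟩

/-- **[RAPP]** without the oddness condition -/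
theorem RAPP' (h2 : finrank ℚ K = 2) {σ₁ σ₂ : K →+* ℝ} (hne : σ₁ ≠ σ₂) {m : ℕ}
    (hm : Odd m) {N : ℕ} (hmN : m ∣ N) (ψ : Ideal (𝓞 K) →* E) (hψ : R.ContR σ₁ m ψ)
    {χ : ℤ → ℤ} (h : Chr8 χ) :
    H545.RApp m ψ {f | (∃ r par, X.Eqv m r N (fun d => χ d * R.chi4 d ^ par) f) ∧
      ∀ η : (𝓞 K)ˣ, TP (η : 𝓞 K) → ∀ α, f (η * α) = f α} :=
  RApp_mono (RAPP h2 hne hm hmN ψ hψ h) fun _ hf => ⟨hf.1, hf.2.1⟩

end

end real

end Vale.Agent.P022.H749
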