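import Vale.Agent.P022.H587.SW

/-!
# [APP3] approximation of a character of a (real) quadratic field (P022, stage 3), letter-free

`Ψ` is a multiplicative function on the elements prime to `2 m` of a ring `A` with a norm,
`2`-adically continuous, trivial on a group `U` of units of norm one.  Then `Ψ` is a uniform limit
of sums `∑ f_i(α) g_i(Nm α)`, `f_i` integer valued, periodic modulo `2 ^ r * m`, invariant under
`U`, with `f_i (d α) = χ d * f_i α` for the odd integers `d = 1` mod `N`, `g_i` polynomials.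
No logarithm of the fundamental unit is needed.
-/

set_option linter.unusedSectionVars false

namespace Vale.Agent.P022.H749

open Polynomial

/-- quadratic characters modulo `8` -/
structure Chr8 (χ : ℤ → ℤ) : Prop where
  pm : ∀ d, Odd d → χ d = 1 ∨ χ d = -1
  per : ∀ d, χ (d + 8) = χ d
  mul : ∀ d d', Odd d → Odd d' → χ (d * d') = χ d * χ d'

theorem Chr8.per' {χ : ℤ → ℤ} (h : Chr8 χ) (d k : ℤ) : χ (d + 8 * k) = χ d := by
  induction k using Int.induction_on with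
  | zero => simp
  | succ k ih =>
    rw [← ih, ← h.per (d + 8 * k)]; congr 1; ring
  | pred k ih =>
    rw [← ih, ← h.per (d + 8 * (-k - 1))]; congr 1; ring

theorem Chr8.congr {χ : ℤ → ℤ} (h : Chr8 χ) {d d' : ℤ} (hd : (8 : ℤ) ∣ d - d') : χ d = χ d' := by
  obtain ⟨k, hk⟩ := hd
  have : d = d' + 8 * k := by linarith
  rw [this, h.per']

theorem Chr8.one {χ : ℤ → ℤ} (h : Chr8 χ) : χ 1 = 1 := by
  have h1 := h.mul 1 1 odd_one odd_one
  rcases h.pm 1 odd_one with h2 | h2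
  · exact h2
  · rw [mul_one, h2] at h1; omega

theorem Chr8.sq {χ : ℤ → ℤ} (h : Chr8 χ) {d : ℤ} (hd : Odd d) : χ d * χ d = 1 := by
  rcases h.pm d hd with h2 | h2 <;> rw [h2] <;> norm_num

theorem Chr8.neg {χ : ℤ → ℤ} (h : Chr8 χ) {d : ℤ} (hd : Odd d) : χ (-d) = χ (-1) * χ d := by
  rw [← h.mul (-1) d (by decide) hd]; congr 1; ring

section

variable {A : Type} [CommRing A]

/-- prime to `2 m` -/
def Cop (m : ℕ) (a : A) : Prop := IsCoprime a ((2 * m : ℕ) : A)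

theorem Cop.mul {m : ℕ} {a b : A} (ha : Cop m a) (hb : Cop m b) : Cop m (a * b) :=
  IsCoprime.mul_left ha hb

theorem Cop.of_mul {m : ℕ} {a b : A} (h : Cop m (a * b)) : Cop m a :=
  IsCoprime.of_mul_left_left h

theorem Cop.one {m : ℕ} : Cop m (1 : A) := isCoprime_one_left

theorem Cop.unit {m : ℕ} (u : Aˣ) : Cop m (u : A) := by
  refine ⟨((u⁻¹ : Aˣ) : A), 0, by simp⟩

theorem Cop.big {m : ℕ} {a : A} (h : Cop m a) (r : ℕ) : IsCoprime a ((2 ^ r * m : ℕ) : A) := by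
  unfold Cop at h
  push_cast at h ⊢
  exact IsCoprime.mul_right (IsCoprime.pow_right (IsCoprime.of_mul_right_left h))
    (IsCoprime.of_mul_right_right h)

theorem Cop.inv {m : ℕ} {a : A} (h : Cop m a) (r : ℕ) :
    ∃ b : A, Cop m b ∧ ((2 ^ r * m : ℕ) : A) ∣ a * b - 1 := by
  obtain ⟨b, c, hbc⟩ := h.big (r + 1)
  refine ⟨b, ⟨a, c * 2 ^ r, ?_⟩, ⟨-(c * 2), ?_⟩⟩
  · rw [← hbc]; push_cast; ring
  · have : a * b - 1 = a * b - (b * a + c * ((2 ^ (r + 1) * m : ℕ) : A)) := by rw [hbc]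
    rw [this]; push_cast; ring

theorem Cop.of_cong {m r : ℕ} (hr : 1 ≤ r) {a b : A} (hb : Cop m b)
    (h : ((2 ^ r * m : ℕ) : A) ∣ a - b) : Cop m a := by
  obtain ⟨k, hk⟩ := h
  obtain ⟨s, rfl⟩ : ∃ s, r = s + 1 := ⟨r - 1, by omega⟩
  have e : a = b + ((2 * m : ℕ) : A) * (2 ^ s * k) := by
    have : a = b + ((2 ^ (s + 1) * m : ℕ) : A) * k := by rw [← hk]; ring
    rw [this]; push_cast; ring
  rw [e]
  exact IsCoprime.add_mul_left_left hb _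

theorem Cop.int {m : ℕ} {w : ℤ} (h : IsCoprime w ((2 * m : ℕ) : ℤ)) : Cop m (w : A) := by
  have := h.map (Int.castRingHom A)
  simpa [Cop] using this

/-- an odd integer `≡ 1` modulo a multiple of `m` -/
theorem Cop.int' {m : ℕ} {w : ℤ} (h : Odd w) (h1 : (m : ℤ) ∣ w - 1) : Cop m (w : A) := by
  apply Cop.int
  push_cast
  refine IsCoprime.mul_right ?_ ?_
  · exact (Int.isCoprime_iff_gcd_eq_one).2 (by
      rcases h with ⟨k, rfl⟩
      exact Int.isCoprime_iff_gcd_eq_one.1 ⟨1, -k, by ring⟩)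
  · obtain ⟨k, hk⟩ := h1
    exact ⟨1, -k, by linarith [mul_comm (m : ℤ) k]⟩

/-- inverses of integers -/
theorem int_inv {N : ℕ} (s : ℕ) {u : ℤ} (hu : Odd u) (h1 : (N : ℤ) ∣ u - 1) :
    ∃ v : ℤ, Odd v ∧ (N : ℤ) ∣ v - 1 ∧ ((2 ^ s * N : ℕ) : ℤ) ∣ u * v - 1 := by
  obtain ⟨v, hv, hv1⟩ := (Cop.int' (A := ℤ) (m := N) hu h1).inv (s + 1)
  have hv1' : ((2 ^ (s + 1) * N : ℕ) : ℤ) ∣ u * v - 1 := by simpa using hv1
  have h2 : (2 : ℤ) ∣ u * v - 1 := by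
    refine dvd_trans ⟨2 ^ s * N, ?_⟩ hv1'
    push_cast; ring
  have hN' : (N : ℤ) ∣ u * v - 1 := dvd_trans ⟨2 ^ (s + 1), by push_cast; ring⟩ hv1'
  refine ⟨v, ?_, ?_, dvd_trans ⟨2, by push_cast; ring⟩ hv1'⟩
  · by_contra hv'
    rw [Int.not_odd_iff_even] at hv'
    obtain ⟨a, ha⟩ := hv'
    obtain ⟨b, hb⟩ := h2
    rw [ha] at hb
    have : u * (a + a) - 1 = 2 * (u * a) - 1 := by ring
    omega
  · have : v - 1 = (u * v - 1) - (u - 1) * v := by ring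
    rw [this]
    exact dvd_sub hN' (h1.mul_right _)

variable {E : Type} [NontriviallyNormedField E] [NormedAlgebra ℚ_[2] E] [IsUltrametricDist E]

/-- the data: a norm, a group of units of norm one, a continuous multiplicative function -/
structure Dat (A : Type) [CommRing A] (E : Type) [NontriviallyNormedField E] (m : ℕ) where
  Nm : A → ℤ
  U : Subgroup Aˣ
  Ψ : A → E
  Nm_mul : ∀ a b, Nm (a * b) = Nm a * Nm b
  Nm_int : ∀ d : ℤ, Nm d = d ^ 2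
  Nm_cong : ∀ (n : ℕ) (a b : A), (n : A) ∣ a - b → (n : ℤ) ∣ Nm a - Nm b
  Nm_U : ∀ η ∈ U, Nm (η : A) = 1
  fin : ∀ n : ℕ, n ≠ 0 → Finite (A ⧸ (Ideal.span {(n : A)}))
  mul : ∀ a b, Cop m a → Cop m b → Ψ (a * b) = Ψ a * Ψ b
  nrm : ∀ a, Cop m a → ‖Ψ a‖ = 1
  one_U : ∀ η ∈ U, Ψ (η : A) = 1
  cont : ∀ ε : ℝ, 0 < ε → ∃ r : ℕ, ∀ a : A, ((2 ^ r * m : ℕ) : A) ∣ a - 1 → ‖Ψ a - 1‖ < ε

namespace Dat

variable {m : ℕ} (D : Dat A E m)

theorem nrm_two : ‖(2 : E)‖ = 1 / 2 := by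
  have h : ((algebraMap ℚ_[2] E) 2) = (2 : E) := map_ofNat _ 2
  rw [← h, norm_algebraMap']
  have := Padic.norm_p (p := 2)
  norm_num at this ⊢
  exact this

theorem nrm_sub_lt {x y : E} {ε : ℝ} (hx : ‖x‖ < ε) (hy : ‖y‖ < ε) : ‖x - y‖ < ε :=
  (H587.norm_sub_le_max' x y).trans_lt (max_lt hx hy)

theorem nrm_add_lt {x y : E} {ε : ℝ} (hx : ‖x‖ < ε) (hy : ‖y‖ < ε) : ‖x + y‖ < ε :=
  (IsUltrametricDist.norm_add_le_max x y).trans_lt (max_lt hx hy)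

theorem nrm_pm {d : ℤ} (h : d = 1 ∨ d = -1) : ‖(d : E)‖ = 1 := by
  rcases h with rfl | rfl <;> simp

include D in
theorem one : D.Ψ 1 = 1 := by
  simpa using D.one_U 1 D.U.one_mem

/-- closeness to one at level `r` -/
def P (r : ℕ) (ε : ℝ) : Prop := ∀ a : A, ((2 ^ r * m : ℕ) : A) ∣ a - 1 → ‖D.Ψ a - 1‖ < ε

variable {D}

theorem P.mono {r s : ℕ} {ε : ℝ} (h : D.P r ε) (hrs : r ≤ s) : D.P s ε := by
  intro a ha
  refine h a (dvd_trans ?_ ha)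
  obtain ⟨t, rfl⟩ := Nat.exists_eq_add_of_le hrs
  exact ⟨2 ^ t, by push_cast; ring⟩

theorem P.near {r : ℕ} {ε : ℝ} (h : D.P r ε) {a b : A} (ha : Cop m a) (hb : Cop m b)
    (hab : ((2 ^ r * m : ℕ) : A) ∣ a - b) : ‖D.Ψ a - D.Ψ b‖ < ε := by
  obtain ⟨c, hc, hbc⟩ := hb.inv r
  have h1 : ‖D.Ψ (b * c) - 1‖ < ε := h _ hbc
  have h2 : ‖D.Ψ (a * c) - 1‖ < ε := by
    refine h _ ?_
    have : a * c - 1 = (a - b) * c + (b * c - 1) := by ring
    rw [this]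
    exact dvd_add (hab.mul_right _) hbc
  rw [D.mul _ _ ha hc] at h2
  rw [D.mul _ _ hb hc] at h1
  have h3 := nrm_sub_lt h2 h1
  have : D.Ψ a * D.Ψ c - 1 - (D.Ψ b * D.Ψ c - 1) = (D.Ψ a - D.Ψ b) * D.Ψ c := by ring
  rw [this, norm_mul, D.nrm c hc, mul_one] at h3
  exact h3

variable (D)

/-- the integers close to `-1` at `2` -/
def S (s : ℕ) (e : ℤ) (ε : ℝ) : Prop :=
  ∀ w : ℤ, ((2 ^ s : ℕ) : ℤ) ∣ w + 1 → (m : ℤ) ∣ w - 1 → ‖D.Ψ (w : A) - e‖ < ε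

variable {D}

theorem S.mono {r s : ℕ} {e : ℤ} {ε : ℝ} (h : D.S r e ε) (hrs : r ≤ s) : D.S s e ε := by
  intro a ha hm
  refine h a (dvd_trans ?_ ha) hm
  exact_mod_cast Nat.pow_dvd_pow 2 hrs

/-- odd -/
theorem odd_of_S {s : ℕ} (hs : 1 ≤ s) {w : ℤ} (h : ((2 ^ s : ℕ) : ℤ) ∣ w + 1) : Odd w := by
  have h2 : (2 : ℤ) ∣ w + 1 := dvd_trans (by
    obtain ⟨t, rfl⟩ : ∃ t, s = t + 1 := ⟨s - 1, by omega⟩
    exact ⟨2 ^ t, by push_cast; ring⟩) h
  rw [Int.odd_iff]; omega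

theorem mul_sq {s : ℕ} {w w' : ℤ} (hm : Odd m) (h : ((2 ^ s : ℕ) : ℤ) ∣ w + 1)
    (h1 : (m : ℤ) ∣ w - 1) (h' : ((2 ^ s : ℕ) : ℤ) ∣ w' + 1) (h1' : (m : ℤ) ∣ w' - 1) :
    ((2 ^ s * m : ℕ) : A) ∣ (w : A) * w' - 1 := by
  have h2 : ((2 ^ s * m : ℕ) : ℤ) ∣ w * w' - 1 := by
    push_cast
    refine IsCoprime.mul_dvd ?_ ?_ ?_
    · apply IsCoprime.pow_left
      rcases hm with ⟨k, hk⟩
      rw [hk]; push_cast
      exact ⟨-(k : ℤ), 1, by ring⟩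
    · have : w * w' - 1 = (w + 1) * w' - (w' + 1) := by ring
      rw [this]
      push_cast at h h'
      exact dvd_sub (h.mul_right _) h'
    · have : w * w' - 1 = (w - 1) * w' + (w' - 1) := by ring
      rw [this]
      exact dvd_add (h1.mul_right _) h1'
  obtain ⟨k, hk⟩ := h2
  exact ⟨(k : A), by exact_mod_cast congrArg (Int.cast : ℤ → A) hk⟩

/-- one of the two signs is close -/
theorem sign_near {x : E} {ε : ℝ} (_ : ε ≤ 1 / 2) (h : ‖x * x - 1‖ < ε / 2) :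
    ∃ e : ℤ, (e = 1 ∨ e = -1) ∧ ‖x - e‖ < ε := by
  by_cases h1 : ‖x - 1‖ < 1 / 2
  · refine ⟨1, Or.inl rfl, ?_⟩
    have h2 : ‖x + 1‖ = 1 / 2 := by
      have : x + 1 = 2 + (x - 1) := by ring
      rw [this, IsUltrametricDist.norm_add_eq_max_of_norm_ne_norm (by rw [nrm_two]; exact h1.ne'),
        nrm_two, max_eq_left h1.le]
    have : x * x - 1 = (x - 1) * (x + 1) := by ring
    rw [this, norm_mul, h2] at h
    simpa using (by linarith : ‖x - 1‖ < ε)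
  · refine ⟨-1, Or.inr rfl, ?_⟩
    push Not at h1
    have h2 : 1 / 2 ≤ ‖x - 1‖ := h1
    have : x * x - 1 = (x - 1) * (x + 1) := by ring
    rw [this, norm_mul] at h
    have h3 : ‖x + 1‖ * (1 / 2) ≤ ‖x - 1‖ * ‖x + 1‖ := by
      rw [mul_comm]; exact mul_le_mul_of_nonneg_right h2 (norm_nonneg _)
    have h4 : ‖x + 1‖ < ε := by linarith
    simpa [sub_neg_eq_add] using h4

variable (D)

theorem exists_sign (hm : Odd m) : ∃ e : ℤ, (e = 1 ∨ e = -1) ∧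
    ∀ ε : ℝ, 0 < ε → ∃ s : ℕ, D.S s e ε := by
  obtain ⟨r₀, h₀⟩ := D.cont (1 / 4) (by norm_num)
  set r₁ := r₀ + 1 with hr₁
  have h₁ : D.P r₁ (1 / 4) := P.mono (D := D) h₀ (by omega)
  -- the sign of a given `w`
  have key : ∀ (r : ℕ) (ε : ℝ), r₁ ≤ r → 0 < ε → ε ≤ 1 / 2 → D.P r (ε / 2) → ∀ w : ℤ,
      ((2 ^ r : ℕ) : ℤ) ∣ w + 1 → (m : ℤ) ∣ w - 1 →
      ∃ e : ℤ, (e = 1 ∨ e = -1) ∧ ‖D.Ψ (w : A) - e‖ < ε := by
    intro r ε hr hε hε2 hP w hw1 hw2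
    have hc : Cop m (w : A) := Cop.int' (odd_of_S (by omega) hw1) hw2
    refine sign_near hε2 ?_
    rw [← D.mul _ _ hc hc]
    exact hP _ (mul_sq hm hw1 hw2 hw1 hw2)
  -- the sign does not depend on `w`
  have key2 : ∀ w w' : ℤ, ((2 ^ r₁ : ℕ) : ℤ) ∣ w + 1 → (m : ℤ) ∣ w - 1 →
      ((2 ^ r₁ : ℕ) : ℤ) ∣ w' + 1 → (m : ℤ) ∣ w' - 1 → ∀ e e' : ℤ, (e = 1 ∨ e = -1) →
      (e' = 1 ∨ e' = -1) → ‖D.Ψ (w : A) - e‖ < 1 / 2 → ‖D.Ψ (w' : A) - e'‖ < 1 / 2 →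
      e = e' := by
    intro w w' h1 h2 h1' h2' e e' he he' hw hw'
    have hc : Cop m (w : A) := Cop.int' (odd_of_S (by omega) h1) h2
    have hc' : Cop m (w' : A) := Cop.int' (odd_of_S (by omega) h1') h2'
    have h3 : ‖D.Ψ (w : A) * D.Ψ (w' : A) - 1‖ < 1 / 2 := by
      rw [← D.mul _ _ hc hc']
      exact (h₁ _ (mul_sq hm h1 h2 h1' h2')).trans (by norm_num)
    have h4 : ‖(D.Ψ (w : A) - e) * D.Ψ (w' : A)‖ < 1 / 2 := by
      rw [norm_mul, D.nrm _ hc', mul_one]; exact hw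
    have h5 : ‖(e : E) * (D.Ψ (w' : A) - e')‖ < 1 / 2 := by
      rw [norm_mul, nrm_pm he, one_mul]; exact hw'
    have h6 : ‖((e * e' - 1 : ℤ) : E)‖ < 1 / 2 := by
      have : ((e * e' - 1 : ℤ) : E) = (D.Ψ (w : A) * D.Ψ (w' : A) - 1) -
          ((D.Ψ (w : A) - e) * D.Ψ (w' : A) + (e : E) * (D.Ψ (w' : A) - e')) := by
        push_cast; ring
      rw [this]
      exact nrm_sub_lt h3 (nrm_add_lt h4 h5)
    by_contra hne
    have h7 : e * e' - 1 = -2 := by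
      rcases he with rfl | rfl <;> rcases he' with rfl | rfl <;> omega
    rw [h7] at h6
    push_cast at h6
    rw [norm_neg, nrm_two] at h6
    exact lt_irrefl _ h6
  by_cases hw : ∃ w : ℤ, ((2 ^ r₁ : ℕ) : ℤ) ∣ w + 1 ∧ (m : ℤ) ∣ w - 1
  · obtain ⟨w₀, hw1, hw2⟩ := hw
    obtain ⟨e, he, hwe⟩ := key r₁ (1 / 2) le_rfl (by norm_num) le_rfl
      (by convert h₁ using 1; norm_num) w₀ hw1 hw2
    refine ⟨e, he, fun ε hε => ?_⟩
    obtain ⟨r, hr⟩ := D.cont (min ε (1 / 2) / 2) (by positivity)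
    refine ⟨max r r₁, fun w h1 h2 => ?_⟩
    have h1' : ((2 ^ r₁ : ℕ) : ℤ) ∣ w + 1 :=
      dvd_trans (by exact_mod_cast Nat.pow_dvd_pow 2 (le_max_right r r₁)) h1
    obtain ⟨e', he', hwe'⟩ := key (max r r₁) (min ε (1 / 2)) (le_max_right _ _) (by positivity)
      (min_le_right _ _) (P.mono (D := D) hr (le_max_left _ _)) w h1 h2
    have := key2 w₀ w hw1 hw2 h1' h2 e e' he he' hwe (hwe'.trans_le (min_le_right _ _))
    rw [this]
    exact hwe'.trans_le (min_le_left _ _)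
  · refine ⟨1, Or.inl rfl, fun ε _ => ⟨r₁, fun w h1 h2 => absurd ⟨w, h1, h2⟩ hw⟩⟩

/-- the comparison of two integers with close squares -/
theorem cmp {D : Dat A E m} {N s : ℕ} {e : ℤ} {ε : ℝ} (hs : 3 ≤ s) (hmN : m ∣ N)
    (he : e = 1 ∨ e = -1) (hP : D.P s ε) (hS : D.S s e ε) {χ : ℤ → ℤ} (hχ : Chr8 χ)
    (hχe : χ (-1) = e) {u u' : ℤ} (hu : Odd u) (hu1 : (N : ℤ) ∣ u - 1) (hu' : Odd u')
    (hu1' : (N : ℤ) ∣ u' - 1)
    (h : ((2 ^ s : ℕ) : ℤ) ∣ u - u' ∨ ((2 ^ s : ℕ) : ℤ) ∣ u + u') (hm : Odd m) :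
    ‖D.Ψ (u : A) * χ u - D.Ψ (u' : A) * χ u'‖ < ε := by
  have hmN' : (m : ℤ) ∣ N := by exact_mod_cast hmN
  have c : Cop m (u : A) := Cop.int' hu (hmN'.trans hu1)
  have c' : Cop m (u' : A) := Cop.int' hu' (hmN'.trans hu1')
  have h8 : (8 : ℤ) ∣ ((2 ^ s : ℕ) : ℤ) := by
    have : (2 ^ 3 : ℕ) ∣ 2 ^ s := Nat.pow_dvd_pow 2 hs
    exact_mod_cast this
  have cop : IsCoprime ((2 : ℤ) ^ s) (m : ℤ) := by
    apply IsCoprime.pow_left
    rcases hm with ⟨k, hk⟩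
    rw [hk]; push_cast
    exact ⟨-(k : ℤ), 1, by ring⟩
  rcases h with h | h
  · have h1 : ((2 ^ s * m : ℕ) : A) ∣ (u : A) - u' := by
      have h2 : ((2 ^ s * m : ℕ) : ℤ) ∣ u - u' := by
        push_cast at h ⊢
        refine cop.mul_dvd h ?_
        have : u - u' = (u - 1) - (u' - 1) := by ring
        rw [this]
        exact dvd_sub (hmN'.trans hu1) (hmN'.trans hu1')
      obtain ⟨k, hk⟩ := h2
      exact ⟨(k : A), by exact_mod_cast congrArg (Int.cast : ℤ → A) hk⟩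
    rw [hχ.congr (h8.trans h), ← sub_mul, norm_mul, nrm_pm (hχ.pm u' hu'), mul_one]
    exact hP.near c c' h1
  · obtain ⟨v, hv, hv1, hv2⟩ := int_inv (N := N) s hu' hu1'
    have hv2' : ((2 ^ s : ℕ) : ℤ) ∣ u' * v - 1 :=
      dvd_trans ⟨(N : ℤ), by push_cast; ring⟩ hv2
    have hv3 : (m : ℤ) ∣ v - 1 := hmN'.trans hv1
    have cv : Cop m (v : A) := Cop.int' hv hv3
    have w1 : ((2 ^ s : ℕ) : ℤ) ∣ u * v + 1 := by
      have : u * v + 1 = (u + u') * v - (u' * v - 1) := by ring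
      rw [this]
      exact dvd_sub (h.mul_right _) hv2'
    have w2 : (m : ℤ) ∣ u * v - 1 := by
      have : u * v - 1 = (u - 1) * v + (v - 1) := by ring
      rw [this]
      exact dvd_add ((hmN'.trans hu1).mul_right _) hv3
    have hw := hS _ w1 w2
    have h3 : ((2 ^ s * m : ℕ) : A) ∣ (u : A) - u' * (u * v) := by
      have h4 : ((2 ^ s * m : ℕ) : ℤ) ∣ u' * v - 1 := by
        refine dvd_trans ?_ hv2
        obtain ⟨k, hk⟩ := hmN
        exact ⟨(k : ℤ), by rw [hk]; push_cast; ring⟩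
      obtain ⟨k, hk⟩ := h4
      refine ⟨(((-k * u : ℤ)) : A), ?_⟩
      have : u - u' * (u * v) = ((2 ^ s * m : ℕ) : ℤ) * (-k * u) := by
        linear_combination (-u) * hk
      exact_mod_cast congrArg (Int.cast : ℤ → A) this
    have h5 := hP.near c (c'.mul (c.mul cv)) h3
    rw [D.mul _ _ c' (c.mul cv)] at h5
    push_cast at hw
    have h6 : ‖D.Ψ (u' : A) * (D.Ψ ((u : A) * v) - e)‖ < ε := by
      rw [norm_mul, D.nrm _ c', one_mul]; exact hw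
    have h7 : ‖D.Ψ (u : A) - e * D.Ψ (u' : A)‖ < ε := by
      have : D.Ψ (u : A) - e * D.Ψ (u' : A) = (D.Ψ (u : A) - D.Ψ (u' : A) * D.Ψ ((u : A) * v)) +
        D.Ψ (u' : A) * (D.Ψ ((u : A) * v) - e) := by ring
      rw [this]
      exact nrm_add_lt h5 h6
    have h8' : χ u = e * χ u' := by
      rw [← hχe, ← hχ.neg hu']
      refine hχ.congr (h8.trans ?_)
      rw [sub_neg_eq_add]; exact h
    have h9 : D.Ψ (u : A) * χ u - D.Ψ (u' : A) * χ u' =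
        (D.Ψ (u : A) - e * D.Ψ (u' : A)) * ((e * χ u' : ℤ) : E) := by
      have he2 : (e : E) * e = 1 := by rcases he with rfl | rfl <;> simp
      rw [h8']
      push_cast
      linear_combination (D.Ψ (u' : A) * χ u') * he2
    rw [h9, norm_mul]
    have : ‖((e * χ u' : ℤ) : E)‖ = 1 := by
      push_cast
      rw [norm_mul, nrm_pm he, nrm_pm (hχ.pm u' hu'), one_mul]
    rw [this, mul_one]
    exact h7

/-- squares close, integers close up to sign -/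
theorem sq_close {s : ℕ} {u u' : ℤ} (hu : Odd u) (hu' : Odd u')
    (h : ((2 ^ (s + 1) : ℕ) : ℤ) ∣ u ^ 2 - u' ^ 2) :
    ((2 ^ s : ℕ) : ℤ) ∣ u - u' ∨ ((2 ^ s : ℕ) : ℤ) ∣ u + u' := by
  -- one of `(u - u') / 2`, `(u + u') / 2` is odd
  obtain ⟨a, ha⟩ : ∃ a, u - u' = 2 * a := by
    rcases hu with ⟨k, rfl⟩; rcases hu' with ⟨l, rfl⟩; exact ⟨k - l, by ring⟩
  obtain ⟨b, hb⟩ : ∃ b, u + u' = 2 * b := by
    rcases hu with ⟨k, rfl⟩; rcases hu' with ⟨l, rfl⟩; exact ⟨k + l + 1, by ring⟩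
  have hab : u = a + b := by linarith
  have hfac : u ^ 2 - u' ^ 2 = 4 * (a * b) := by
    have : u ^ 2 - u' ^ 2 = (u - u') * (u + u') := by ring
    rw [this, ha, hb]; ring
  rcases Nat.eq_zero_or_pos s with rfl | hs
  · left; simp
  obtain ⟨t, rfl⟩ : ∃ t, s = t + 1 := ⟨s - 1, by omega⟩
  have h2 : (2 : ℤ) ^ t ∣ a * b := by
    rw [hfac] at h
    push_cast at h
    have e : (2 : ℤ) ^ (t + 1 + 1) = 4 * 2 ^ t := by ring
    rw [e] at h
    exact (mul_dvd_mul_iff_left (by norm_num)).1 h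
  have hodd : Odd a ∨ Odd b := by
    by_contra hcon
    push Not at hcon
    rw [Int.not_odd_iff_even, Int.not_odd_iff_even] at hcon
    rw [hab] at hu
    exact (Int.not_odd_iff_even.2 (hcon.1.add hcon.2)) hu
  have c2 : ∀ x : ℤ, Odd x → IsCoprime ((2 : ℤ) ^ t) x := by
    intro x hx
    apply IsCoprime.pow_left
    obtain ⟨k, rfl⟩ := hx
    exact ⟨-k, 1, by ring⟩
  rcases hodd with ho | ho
  · right
    have := (c2 a ho).dvd_of_dvd_mul_left h2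
    rw [hb]; push_cast
    rw [pow_succ, mul_comm]
    exact mul_dvd_mul_left 2 this
  · left
    have := (c2 b ho).dvd_of_dvd_mul_right h2
    rw [ha]; push_cast
    rw [pow_succ, mul_comm]
    exact mul_dvd_mul_left 2 this

theorem odd_Nm (D : Dat A E m) {x : A} (hx : Cop m x) : Odd (D.Nm x) := by
  obtain ⟨b, -, hb⟩ := hx.inv 1
  have h1 := D.Nm_cong _ _ _ hb
  have h2 : D.Nm 1 = 1 := by simpa using D.Nm_int 1
  rw [D.Nm_mul, h2] at h1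
  obtain ⟨k, hk⟩ := h1
  by_contra hcon
  rw [Int.not_odd_iff_even] at hcon
  obtain ⟨l, hl⟩ := hcon
  rw [hl] at hk
  have e1 : (l + l) * D.Nm b - 1 = 2 * (l * D.Nm b) - 1 := by ring
  have e2 : ((2 ^ 1 * m : ℕ) : ℤ) * k = 2 * (m * k) := by push_cast; ring
  omega

/-- `α = u x η` modulo `n` -/
def Cls (D : Dat A E m) (N n : ℕ) (x α : A) (u : ℤ) : Prop :=
  Odd u ∧ (N : ℤ) ∣ u - 1 ∧ ∃ η ∈ D.U, (n : A) ∣ α - u * x * ((η : Aˣ) : A)

variable {D : Dat A E m} {N s : ℕ}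

theorem Cls.cop {x α : A} {u : ℤ} (hmN : m ∣ N) (hx : Cop m x)
    (h : D.Cls N (2 ^ (s + 1) * m) x α u) : Cop m α := by
  obtain ⟨hu, hu1, η, -, h⟩ := h
  have hmN' : (m : ℤ) ∣ N := by exact_mod_cast hmN
  exact Cop.of_cong (by omega) (((Cop.int' hu (hmN'.trans hu1)).mul hx).mul (Cop.unit η)) h

theorem Cls.nm {x α : A} {u : ℤ} (h : D.Cls N (2 ^ (s + 1) * m) x α u) :
    ((2 ^ (s + 1) : ℕ) : ℤ) ∣ D.Nm α - u ^ 2 * D.Nm x := by
  obtain ⟨-, -, η, hη, h⟩ := h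
  have h1 := D.Nm_cong _ _ _ h
  rw [D.Nm_mul, D.Nm_mul, D.Nm_int, D.Nm_U η hη, mul_one] at h1
  exact dvd_trans ⟨(m : ℤ), by push_cast; ring⟩ h1

theorem sq_dvd {a b c x : ℤ} (hx : Odd x) (h : ((2 ^ s : ℕ) : ℤ) ∣ c - a ^ 2 * x)
    (h' : ((2 ^ s : ℕ) : ℤ) ∣ c - b ^ 2 * x) : ((2 ^ s : ℕ) : ℤ) ∣ a ^ 2 - b ^ 2 := by
  have h1 : ((2 ^ s : ℕ) : ℤ) ∣ (a ^ 2 - b ^ 2) * x := by
    have : (a ^ 2 - b ^ 2) * x = (c - b ^ 2 * x) - (c - a ^ 2 * x) := by ring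
    rw [this]
    exact dvd_sub h' h
  have : IsCoprime ((2 ^ s : ℕ) : ℤ) x := by
    push_cast
    apply IsCoprime.pow_left
    obtain ⟨k, rfl⟩ := hx
    exact ⟨-k, 1, by ring⟩
  exact this.dvd_of_dvd_mul_right h1

/-- the hypotheses on the level `s` -/
structure Lev (D : Dat A E m) (N s : ℕ) (e : ℤ) (ε : ℝ) (χ : ℤ → ℤ) : Prop where
  hm : Odd m
  hs : 3 ≤ s
  hmN : m ∣ N
  he : e = 1 ∨ e = -1
  hP : D.P s ε
  hS : D.S s e ε
  hε : ε ≤ 1 / 2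
  hχ : Chr8 χ
  hχe : χ (-1) = e

theorem wd {e : ℤ} {ε : ℝ} {χ : ℤ → ℤ} (L : Lev D N s e ε χ) {x α : A} {u u' : ℤ}
    (hx : Cop m x) (h : D.Cls N (2 ^ (s + 1) * m) x α u)
    (h' : D.Cls N (2 ^ (s + 1) * m) x α u') : χ u = χ u' := by
  have hmN' : (m : ℤ) ∣ N := by exact_mod_cast L.hmN
  have h8 : (8 : ℤ) ∣ ((2 ^ s : ℕ) : ℤ) := by
    have : (2 ^ 3 : ℕ) ∣ 2 ^ s := Nat.pow_dvd_pow 2 L.hs
    exact_mod_cast this
  have h1 := sq_close h.1 h'.1 (sq_dvd (odd_Nm D hx) h.nm h'.nm)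
  obtain ⟨hu, hu1, η, hη, h⟩ := h
  obtain ⟨hu', hu1', η', hη', h'⟩ := h'
  rcases h1 with h1 | h1
  · exact L.hχ.congr (h8.trans h1)
  · obtain ⟨v, hv, hv1, hv2⟩ := int_inv (N := N) (s + 1) hu' hu1'
    have hv2' : ((2 ^ s : ℕ) : ℤ) ∣ u' * v - 1 :=
      dvd_trans ⟨(2 * N : ℤ), by push_cast; ring⟩ hv2
    have hv3 : (m : ℤ) ∣ v - 1 := hmN'.trans hv1
    have cu : Cop m (u : A) := Cop.int' hu (hmN'.trans hu1)
    have cv : Cop m (v : A) := Cop.int' hv hv3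
    have w1 : ((2 ^ s : ℕ) : ℤ) ∣ u * v + 1 := by
      have : u * v + 1 = (u + u') * v - (u' * v - 1) := by ring
      rw [this]
      exact dvd_sub (h1.mul_right _) hv2'
    have w2 : (m : ℤ) ∣ u * v - 1 := by
      have : u * v - 1 = (u - 1) * v + (v - 1) := by ring
      rw [this]
      exact dvd_add ((hmN'.trans hu1).mul_right _) hv3
    have hw := L.hS _ w1 w2
    -- `u v = η' η⁻¹` modulo `2 ^ (s+1) m`
    obtain ⟨y, hy, hxy⟩ := hx.inv (s + 1)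
    have hvA : ((2 ^ (s + 1) * m : ℕ) : A) ∣ (u' : A) * v - 1 := by
      have h4 : ((2 ^ (s + 1) * m : ℕ) : ℤ) ∣ u' * v - 1 := by
        refine dvd_trans ?_ hv2
        obtain ⟨k, hk⟩ := L.hmN
        exact ⟨(k : ℤ), by rw [hk]; push_cast; ring⟩
      obtain ⟨k, hk⟩ := h4
      exact ⟨(k : A), by exact_mod_cast congrArg (Int.cast : ℤ → A) hk⟩
    have e1 : ((η⁻¹ : Aˣ) : A) * (η : A) = 1 := by simp
    have h2 : ((2 ^ (s + 1) * m : ℕ) : A) ∣ (u : A) * v - ((η' * η⁻¹ : Aˣ) : A) := by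
      obtain ⟨k1, hk1⟩ := h
      obtain ⟨k2, hk2⟩ := h'
      obtain ⟨k3, hk3⟩ := hxy
      obtain ⟨k4, hk4⟩ := hvA
      refine ⟨(k2 - k1) * y * v * ((η⁻¹ : Aˣ) : A) - k3 * ((u : A) * v)
        + k3 * ((u' : A) * v * η' * ((η⁻¹ : Aˣ) : A)) + k4 * (η' * ((η⁻¹ : Aˣ) : A)), ?_⟩
      push_cast
      push_cast at hk1 hk2 hk3 hk4
      linear_combination (y * v * ((η⁻¹ : Aˣ) : A)) * (hk2 - hk1)
        + (-(u : A) * v + (u' : A) * v * η' * ((η⁻¹ : Aˣ) : A)) * hk3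
        + (η' * ((η⁻¹ : Aˣ) : A)) * hk4 - (u : A) * x * y * v * e1
    have h3 : ‖D.Ψ ((u : A) * v) - 1‖ < ε := by
      have hU : η' * η⁻¹ ∈ D.U := D.U.mul_mem hη' (D.U.inv_mem hη)
      rw [← D.one_U _ hU]
      exact (L.hP.mono (Nat.le_succ s)).near (cu.mul cv) (Cop.unit _) h2
    push_cast at hw
    have h4 : ‖((e - 1 : ℤ) : E)‖ < 1 / 2 := by
      have : ((e - 1 : ℤ) : E) = (D.Ψ ((u : A) * v) - 1) - (D.Ψ ((u : A) * v) - e) := by
        push_cast; ring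
      rw [this]
      exact (nrm_sub_lt h3 hw).trans_le L.hε
    have h5 : e = 1 := by
      rcases L.he with h5 | h5
      · exact h5
      · rw [h5] at h4
        have h6 : ((-1 - 1 : ℤ) : E) = -2 := by push_cast; ring
        rw [h6, norm_neg, nrm_two] at h4
        exact absurd h4 (lt_irrefl _)
    have h6 : χ u = χ (-u') := L.hχ.congr (by
      rw [sub_neg_eq_add]; exact h8.trans h1)
    rw [h6, L.hχ.neg hu', L.hχe, h5, one_mul]

/-- values at two elements of one class with close norms -/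
theorem approx {e : ℤ} {ε : ℝ} {χ : ℤ → ℤ} (L : Lev D N s e ε χ) {x α α' : A} {u u' : ℤ}
    (hx : Cop m x) (h : D.Cls N (2 ^ (s + 1) * m) x α u)
    (h' : D.Cls N (2 ^ (s + 1) * m) x α' u')
    (hn : ((2 ^ (s + 1) : ℕ) : ℤ) ∣ D.Nm α - D.Nm α') :
    ‖D.Ψ α * χ u - D.Ψ α' * χ u'‖ < ε := by
  have hmN' : (m : ℤ) ∣ N := by exact_mod_cast L.hmN
  have key : ∀ {β : A} {v : ℤ}, D.Cls N (2 ^ (s + 1) * m) x β v →
      ‖D.Ψ β * χ v - D.Ψ (v : A) * D.Ψ x * χ v‖ < ε := by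
    intro β v hβ
    have cβ := hβ.cop L.hmN hx
    obtain ⟨hv, hv1, η, hη, h⟩ := hβ
    have cv : Cop m (v : A) := Cop.int' hv (hmN'.trans hv1)
    have h1 := (L.hP.mono (Nat.le_succ s)).near cβ ((cv.mul hx).mul (Cop.unit η)) h
    rw [D.mul _ _ (cv.mul hx) (Cop.unit η), D.mul _ _ cv hx, D.one_U η hη, mul_one] at h1
    rw [← sub_mul, norm_mul, nrm_pm (L.hχ.pm v hv), mul_one]
    exact h1
  have h1 : ((2 ^ (s + 1) : ℕ) : ℤ) ∣ u ^ 2 - u' ^ 2 := by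
    refine sq_dvd (odd_Nm D hx) h.nm ?_
    have : D.Nm α - u' ^ 2 * D.Nm x = (D.Nm α - D.Nm α') + (D.Nm α' - u' ^ 2 * D.Nm x) := by ring
    rw [this]
    exact dvd_add hn h'.nm
  have h2 := cmp L.hs L.hmN L.he L.hP L.hS L.hχ L.hχe h.1 h.2.1 h'.1 h'.2.1
    (sq_close h.1 h'.1 h1) L.hm
  have h3 : ‖(D.Ψ (u : A) * χ u - D.Ψ (u' : A) * χ u') * D.Ψ x‖ < ε := by
    rw [norm_mul, D.nrm x hx, mul_one]; exact h2
  have : D.Ψ α * χ u - D.Ψ α' * χ u' = (D.Ψ α * χ u - D.Ψ (u : A) * D.Ψ x * χ u) -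
    (D.Ψ α' * χ u' - D.Ψ (u' : A) * D.Ψ x * χ u') +
    (D.Ψ (u : A) * χ u - D.Ψ (u' : A) * χ u') * D.Ψ x := by ring
  rw [this]
  exact nrm_add_lt (nrm_sub_lt (key h) (key h')) h3

/-! ### the class function -/

open Classical in
/-- the class function of `x`: `χ u` at `u x η`, zero elsewhere -/
noncomputable def ff (D : Dat A E m) (N n : ℕ) (χ : ℤ → ℤ) (x α : A) : ℤ :=
  if h : ∃ u : ℤ, D.Cls N n x α u then χ h.choose else 0

theorem ff_eq {e : ℤ} {ε : ℝ} {χ : ℤ → ℤ} (L : Lev D N s e ε χ) {x α : A} {u : ℤ}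
    (hx : Cop m x) (h : D.Cls N (2 ^ (s + 1) * m) x α u) :
    D.ff N (2 ^ (s + 1) * m) χ x α = χ u := by
  have hex : ∃ u : ℤ, D.Cls N (2 ^ (s + 1) * m) x α u := ⟨u, h⟩
  rw [ff, dif_pos hex]
  exact wd L hx hex.choose_spec h

theorem ff_zero {χ : ℤ → ℤ} {n : ℕ} {x α : A} (h : ¬ ∃ u : ℤ, D.Cls N n x α u) :
    D.ff N n χ x α = 0 := by
  rw [ff, dif_neg h]

theorem ff_per (χ : ℤ → ℤ) (n : ℕ) (x α β : A) :
    D.ff N n χ x (α + (n : A) * β) = D.ff N n χ x α := by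
  have h : (D.Cls N n x (α + (n : A) * β)) = (D.Cls N n x α) := by
    funext u
    refine propext (and_congr Iff.rfl (and_congr Iff.rfl (exists_congr fun η =>
      and_congr Iff.rfl ?_)))
    have : α + (n : A) * β - u * x * ((η : Aˣ) : A) =
      (α - u * x * ((η : Aˣ) : A)) + (n : A) * β := by ring
    rw [this]
    exact dvd_add_left (dvd_mul_right _ _)
  unfold ff
  rw [h]

theorem Cls.unit {n : ℕ} {x α : A} {u : ℤ} (h : D.Cls N n x α u) {ζ : Aˣ} (hζ : ζ ∈ D.U) :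
    D.Cls N n x (ζ * α) u := by
  obtain ⟨hu, hu1, η, hη, k, hk⟩ := h
  refine ⟨hu, hu1, ζ * η, D.U.mul_mem hζ hη, (ζ : A) * k, ?_⟩
  push_cast
  linear_combination (ζ : A) * hk

theorem ff_unit (χ : ℤ → ℤ) (n : ℕ) (x α : A) {ζ : Aˣ} (hζ : ζ ∈ D.U) :
    D.ff N n χ x (ζ * α) = D.ff N n χ x α := by
  have h : (D.Cls N n x (ζ * α)) = (D.Cls N n x α) := by
    funext u
    refine propext ⟨fun h => ?_, fun h => h.unit hζ⟩
    have := h.unit (D.U.inv_mem hζ)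
    rwa [← mul_assoc, Units.inv_mul, one_mul] at this
  unfold ff
  rw [h]

theorem Cls.int {n : ℕ} {x α : A} {u : ℤ} (h : D.Cls N n x α u) {d : ℤ} (hd : Odd d)
    (hd1 : (N : ℤ) ∣ d - 1) : D.Cls N n x (d * α) (d * u) := by
  obtain ⟨hu, hu1, η, hη, k, hk⟩ := h
  refine ⟨hd.mul hu, ?_, η, hη, (d : A) * k, ?_⟩
  · have : d * u - 1 = (d - 1) * u + (u - 1) := by ring
    rw [this]
    exact dvd_add (hd1.mul_right _) hu1
  · push_cast
    linear_combination (d : A) * hk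

theorem Cls.cong {n : ℕ} {x α β : A} {u : ℤ} (h : D.Cls N n x α u) (hab : (n : A) ∣ β - α) :
    D.Cls N n x β u := by
  obtain ⟨hu, hu1, η, hη, h⟩ := h
  refine ⟨hu, hu1, η, hη, ?_⟩
  have : β - u * x * ((η : Aˣ) : A) = (β - α) + (α - u * x * ((η : Aˣ) : A)) := by ring
  rw [this]
  exact dvd_add hab h

theorem ff_int {e : ℤ} {ε : ℝ} {χ : ℤ → ℤ} (L : Lev D N s e ε χ) {x : A} (hx : Cop m x)
    {d : ℤ} (hd : Odd d) (hd1 : (N : ℤ) ∣ d - 1) (α : A) :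
    D.ff N (2 ^ (s + 1) * m) χ x (d * α) = χ d * D.ff N (2 ^ (s + 1) * m) χ x α := by
  by_cases h : ∃ u : ℤ, D.Cls N (2 ^ (s + 1) * m) x α u
  · obtain ⟨u, h⟩ := h
    rw [ff_eq L hx h, ff_eq L hx (h.int hd hd1), L.hχ.mul d u hd h.1]
  · rw [ff_zero h, mul_zero]
    apply ff_zero
    rintro ⟨u, hu⟩
    apply h
    obtain ⟨v, hv, hv1, hv2⟩ := int_inv (N := N) (s + 1) hd hd1
    refine ⟨v * u, (hu.int hv hv1).cong ?_⟩
    have h4 : ((2 ^ (s + 1) * m : ℕ) : ℤ) ∣ d * v - 1 := by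
      refine dvd_trans ?_ hv2
      obtain ⟨k, hk⟩ := L.hmN
      exact ⟨(k : ℤ), by rw [hk]; push_cast; ring⟩
    obtain ⟨k, hk⟩ := h4
    have hk' : ((d * v - 1 : ℤ) : A) = ((((2 ^ (s + 1) * m : ℕ) : ℤ) * k : ℤ) : A) := by rw [hk]
    push_cast at hk'
    refine ⟨-(k : A) * α, ?_⟩
    push_cast
    linear_combination (-α) * hk'

theorem Cls.refl (n : ℕ) (x : A) : D.Cls N n x x 1 :=
  ⟨odd_one, by simp, 1, D.U.one_mem, by simp⟩

theorem Cls.trans {n : ℕ} {x y z : A} {u v : ℤ} (h : D.Cls N n x y u) (h' : D.Cls N n y z v) :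
    D.Cls N n x z (v * u) := by
  obtain ⟨hu, hu1, η, hη, k, hk⟩ := h
  obtain ⟨hv, hv1, ζ, hζ, l, hl⟩ := h'
  refine ⟨hv.mul hu, ?_, ζ * η, D.U.mul_mem hζ hη, l + v * ζ * k, ?_⟩
  · have : v * u - 1 = (v - 1) * u + (u - 1) := by ring
    rw [this]
    exact dvd_add (hv1.mul_right _) hu1
  · push_cast
    linear_combination hl + (v * (ζ : A)) * hk

theorem Cls.symm {x y : A} {u : ℤ} (hmN : m ∣ N) (h : D.Cls N (2 ^ s * m) x y u) :
    ∃ v, D.Cls N (2 ^ s * m) y x v := by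
  obtain ⟨hu, hu1, η, hη, k, hk⟩ := h
  obtain ⟨v, hv, hv1, hv2⟩ := int_inv (N := N) s hu hu1
  have h4 : ((2 ^ s * m : ℕ) : ℤ) ∣ u * v - 1 := by
    refine dvd_trans ?_ hv2
    obtain ⟨k, hk⟩ := hmN
    exact ⟨(k : ℤ), by rw [hk]; push_cast; ring⟩
  obtain ⟨l, hl⟩ := h4
  have hl' : ((u * v - 1 : ℤ) : A) = ((((2 ^ s * m : ℕ) : ℤ) * l : ℤ) : A) := by rw [hl]
  push_cast at hl'
  have e1 : ((η⁻¹ : Aˣ) : A) * (η : A) = 1 := by simp
  refine ⟨v, hv, hv1, η⁻¹, D.U.inv_mem hη, -(v : A) * ((η⁻¹ : Aˣ) : A) * k - l * x, ?_⟩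
  push_cast
  push_cast at hk
  linear_combination (-(v : A) * ((η⁻¹ : Aˣ) : A)) * hk - x * hl' - ((v : A) * u * x) * e1

/-! ### balls -/

theorem ball (n : ℕ) (ν : ZMod (2 ^ n)) {ε : ℝ} (hε : 0 < ε) :
    ∃ g : E[X], ∀ a : ℤ, ‖g.eval (a : E) - (if (a : ZMod (2 ^ n)) = ν then 1 else 0)‖ < ε := by
  have hK : IsCompact ((algebraMap ℚ_[2] E) '' Metric.closedBall 0 1) :=
    (isCompact_closedBall (0 : ℚ_[2]) 1).image (continuous_algebraMap ℚ_[2] E)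
  have hr : (0 : ℝ) < (2 : ℝ) ^ (-(n : ℤ)) := by positivity
  obtain ⟨P, h1, h2⟩ := H587.ball_any hK ((ν.val : ℕ) : E) hr hε
  have key : ∀ a : ℤ, ‖(a : E) - ((ν.val : ℕ) : E)‖ ≤ (2 : ℝ) ^ (-(n : ℤ)) ↔
      (a : ZMod (2 ^ n)) = ν := by
    intro a
    have e1 : (a : E) - ((ν.val : ℕ) : E) = algebraMap ℚ_[2] E ((a - (ν.val : ℕ) : ℤ) : ℚ_[2]) := by
      push_cast; simp
    rw [e1, norm_algebraMap']
    have e2 := Padic.norm_int_le_pow_iff_dvd (p := 2) (a - (ν.val : ℕ)) n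
    push_cast at e2 ⊢
    rw [e2]
    have e3 : ((2 : ℤ) ^ n ∣ a - (ν.val : ℕ)) ↔ ((2 ^ n : ℕ) : ℤ) ∣ a - (ν.val : ℕ) := by
      push_cast; rfl
    have e4 := ZMod.intCast_eq_intCast_iff_dvd_sub ((ν.val : ℕ) : ℤ) a (2 ^ n)
    rw [e3, ← e4]
    rw [Int.cast_natCast, ZMod.natCast_zmod_val]
    exact eq_comm
  refine ⟨P, fun a => ?_⟩
  by_cases ha : (a : ZMod (2 ^ n)) = ν
  · rw [if_pos ha, norm_sub_rev]
    exact h1 _ ((key a).2 ha)
  · rw [if_neg ha, sub_zero]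
    refine h2 _ ⟨(a : ℚ_[2]), ?_, by simp⟩ (lt_of_not_ge fun h => ha ((key a).1 h))
    rw [mem_closedBall_zero_iff]
    exact Padic.norm_int_le_one a

theorem nrm_sum_lt {J : Type} (t : Finset J) (F : J → E) {ε : ℝ} (hε : 0 < ε)
    (h : ∀ j ∈ t, ‖F j‖ < ε) : ‖∑ j ∈ t, F j‖ < ε := by
  classical
  induction t using Finset.induction_on with
  | empty => simpa using hε
  | insert a t ha ih =>
    rw [Finset.sum_insert ha]
    exact nrm_add_lt (h a (Finset.mem_insert_self a t))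
      (ih fun j hj => h j (Finset.mem_insert_of_mem hj))

variable (D) in
/-- the class of functions used in the approximation -/
def Fam (N r : ℕ) (χ : ℤ → ℤ) (f : A → ℤ) : Prop :=
  (∀ α β, f (α + ((2 ^ r * m : ℕ) : A) * β) = f α) ∧
  (∀ d : ℤ, Odd d → (N : ℤ) ∣ d - 1 → ∀ α, f (d * α) = χ d * f α) ∧
  (∀ η ∈ D.U, ∀ α, f (((η : Aˣ) : A) * α) = f α) ∧
  ∀ α, ¬ Cop m α → f α = 0

theorem app3_lev {e : ℤ} {ε : ℝ} {χ : ℤ → ℤ} (L : Lev D N s e ε χ) (hε : 0 < ε) :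
    ∃ (J : Type) (_ : Fintype J) (f : J → A → ℤ) (g : J → E[X]),
      (∀ j, D.Fam N (s + 1) χ (f j)) ∧ ∀ a, Cop m a →
        ‖D.Ψ a - ∑ j, (f j a : E) * (g j).eval (D.Nm a : E)‖ < ε := by
  classical
  set n : ℕ := 2 ^ (s + 1) * m with hn
  have hn0 : n ≠ 0 := by
    have := L.hm.pos
    positivity
  let A' := {a : A // Cop m a}
  let S : Setoid A' :=
    { r := fun x y => ∃ u, D.Cls N n x.1 y.1 u
      iseqv :=
        { refl := fun x => ⟨1, Cls.refl n x.1⟩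
          symm := fun {x y} ⟨u, h⟩ => h.symm L.hmN
          trans := fun {x y z} ⟨u, h⟩ ⟨v, h'⟩ => ⟨v * u, h.trans h'⟩ } }
  -- finiteness of the quotient
  have hfin : Finite (Quotient S) := by
    have : Finite (A ⧸ (Ideal.span {(n : A)})) := D.fin n hn0
    let T := {c : A ⧸ (Ideal.span {(n : A)}) // ∃ a : A', Ideal.Quotient.mk _ a.1 = c}
    let φ : T → Quotient S := fun c => Quotient.mk S c.2.choose
    refine Finite.of_surjective φ ?_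
    intro q
    obtain ⟨a, rfl⟩ := Quotient.exists_rep q
    let c : T := ⟨Ideal.Quotient.mk _ a.1, a, rfl⟩
    refine ⟨c, Quotient.sound ⟨1, ?_⟩⟩
    have h1 : Ideal.Quotient.mk (Ideal.span {(n : A)}) c.2.choose.1 =
      Ideal.Quotient.mk _ a.1 := c.2.choose_spec
    rw [Ideal.Quotient.eq, Ideal.mem_span_singleton] at h1
    refine (Cls.refl n _).cong ?_
    rw [← neg_sub]
    exact (dvd_neg).2 h1
  have : Fintype (Quotient S) := Fintype.ofFinite _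
  let out : Quotient S → A' := fun q => Quotient.out q
  have hout : ∀ a : A', ∃ u, D.Cls N n (out (Quotient.mk S a)).1 a.1 u := fun a =>
    Quotient.mk_out (s := S) a
  have hout' : ∀ (q : Quotient S) (a : A') (u : ℤ), D.Cls N n (out q).1 a.1 u →
      q = Quotient.mk S a := by
    intro q a u h
    have h1 : Quotient.mk S (out q) = Quotient.mk S a := Quotient.sound ⟨u, h⟩
    rw [← h1]
    exact (Quotient.out_eq q).symm
  -- the coefficients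
  let R : Quotient S → ZMod (2 ^ (s + 1)) → A' → Prop := fun q ν a =>
    Quotient.mk S a = q ∧ ((D.Nm a.1 : ℤ) : ZMod (2 ^ (s + 1))) = ν
  let c : Quotient S → ZMod (2 ^ (s + 1)) → E := fun q ν =>
    if h : ∃ a : A', R q ν a then
      D.Ψ h.choose.1 * (D.ff N n χ (out q).1 h.choose.1 : ℤ) else 0
  have hff : ∀ (x a : A), ‖((D.ff N n χ x a : ℤ) : E)‖ ≤ 1 := by
    intro x a
    by_cases h : ∃ u : ℤ, D.Cls N n x a u
    · rw [ff, dif_pos h, nrm_pm (L.hχ.pm _ h.choose_spec.1)]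
    · rw [ff_zero h]; simp
  have hc : ∀ q ν, ‖c q ν‖ ≤ 1 := by
    intro q ν
    by_cases h : ∃ a : A', R q ν a
    · simp only [c, dif_pos h]
      rw [norm_mul, D.nrm _ h.choose.2, one_mul]
      exact hff _ _
    · simp only [c, dif_neg h]; simp
  choose b hb using fun ν : ZMod (2 ^ (s + 1)) => ball (E := E) (s + 1) ν hε
  refine ⟨Quotient S × ZMod (2 ^ (s + 1)), inferInstance,
    fun j => D.ff N n χ (out j.1).1, fun j => C (c j.1 j.2) * b j.2, ?_, ?_⟩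
  · intro j
    refine ⟨fun α β => ff_per χ n _ α β, fun d hd hd1 α => ff_int L (out j.1).2 hd hd1 α,
      fun η hη α => ff_unit χ n _ α hη, fun α hα => ff_zero ?_⟩
    rintro ⟨u, hu⟩
    exact hα (hu.cop L.hmN (out j.1).2)
  · intro a ha
    set a' : A' := ⟨a, ha⟩ with ha'
    set q := Quotient.mk S a' with hq
    set ν : ZMod (2 ^ (s + 1)) := ((D.Nm a : ℤ) : ZMod (2 ^ (s + 1))) with hν
    have hex : ∃ a : A', R q ν a := ⟨a', rfl, rfl⟩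
    have h1 : ‖D.Ψ a - (D.ff N n χ (out q).1 a : ℤ) * c q ν‖ < ε := by
      simp only [c, dif_pos hex]
      obtain ⟨u, hu⟩ := hout a'
      obtain ⟨hq1, hν1⟩ := hex.choose_spec
      obtain ⟨u', hu'⟩ := hout hex.choose
      rw [hq1] at hu'
      rw [← hq] at hu
      have h2 := approx L (out q).2 hu hu' (by
        have := (ZMod.intCast_eq_intCast_iff_dvd_sub (D.Nm hex.choose.1) (D.Nm a)
          (2 ^ (s + 1))).1 (by rw [hν1])
        exact this)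
      rw [ff_eq L (out q).2 hu, ff_eq L (out q).2 hu']
      have h3 : (χ u : E) * χ u = 1 := by exact_mod_cast congrArg (Int.cast : ℤ → E) (L.hχ.sq hu.1)
      have h4 : D.Ψ a - (χ u : E) * (D.Ψ hex.choose.1 * χ u') =
          (χ u : E) * (D.Ψ a * χ u - D.Ψ hex.choose.1 * χ u') := by
        linear_combination (-D.Ψ a) * h3
      rw [h4, norm_mul, nrm_pm (L.hχ.pm u hu.1), one_mul]
      exact h2
    have h2 : ∑ j : Quotient S × ZMod (2 ^ (s + 1)), ((D.ff N n χ (out j.1).1 a : ℤ) : E) *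
        (c j.1 j.2 * (if ((D.Nm a : ℤ) : ZMod (2 ^ (s + 1))) = j.2 then 1 else 0)) =
        (D.ff N n χ (out q).1 a : ℤ) * c q ν := by
      rw [Finset.sum_eq_single (q, ν)]
      · simp [hν]
      · rintro ⟨q', ν'⟩ - hne
        by_cases hν' : ((D.Nm a : ℤ) : ZMod (2 ^ (s + 1))) = ν'
        · have hq' : q' ≠ q := by
            rintro rfl
            exact hne (by rw [← hν'])
          have : D.ff N n χ (out q').1 a = 0 := by
            apply ff_zero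
            rintro ⟨u, hu⟩
            exact hq' (hout' q' a' u hu)
          rw [this]; simp
        · simp [hν']
      · intro h; exact absurd (Finset.mem_univ _) h
    have h3 : D.Ψ a - ∑ j : Quotient S × ZMod (2 ^ (s + 1)),
        ((D.ff N n χ (out j.1).1 a : ℤ) : E) * (C (c j.1 j.2) * b j.2).eval (D.Nm a : E) =
        (D.Ψ a - (D.ff N n χ (out q).1 a : ℤ) * c q ν) -
        ∑ j : Quotient S × ZMod (2 ^ (s + 1)), ((D.ff N n χ (out j.1).1 a : ℤ) : E) *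
          (c j.1 j.2 * ((b j.2).eval (D.Nm a : E) -
            (if ((D.Nm a : ℤ) : ZMod (2 ^ (s + 1))) = j.2 then 1 else 0))) := by
      rw [← h2, sub_sub, ← Finset.sum_add_distrib]
      congr 1
      refine Finset.sum_congr rfl fun j _ => ?_
      rw [eval_mul, eval_C]
      ring
    rw [h3]
    refine nrm_sub_lt h1 (nrm_sum_lt _ _ hε fun j _ => ?_)
    rw [norm_mul, norm_mul]
    calc _ ≤ 1 * (1 * ‖(b j.2).eval (D.Nm a : E) -
            (if ((D.Nm a : ℤ) : ZMod (2 ^ (s + 1))) = j.2 then 1 else 0)‖) := by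
          gcongr
          · exact hff _ _
          · exact hc _ _
      _ < ε := by rw [one_mul, one_mul]; exact hb j.2 (D.Nm a)

/-- **[APP3]** -/
theorem app3 (D : Dat A E m) (hm : Odd m) {N : ℕ} (hmN : m ∣ N) {χ₀ χ₁ : ℤ → ℤ}
    (h₀ : Chr8 χ₀) (h₁ : Chr8 χ₁) (e₀ : χ₀ (-1) = 1) (e₁ : χ₁ (-1) = -1) :
    ∃ χ, (χ = χ₀ ∨ χ = χ₁) ∧ ∀ ε : ℝ, 0 < ε → ∃ (r n : ℕ) (f : Fin n → A → ℤ)
      (g : Fin n → E[X]), (∀ i, D.Fam N r χ (f i)) ∧ ∀ a, Cop m a →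
        ‖D.Ψ a - ∑ i, (f i a : E) * (g i).eval (D.Nm a : E)‖ < ε := by
  obtain ⟨e, he, hS⟩ := D.exists_sign hm
  obtain ⟨χ, hχ, hχ8, hχe⟩ : ∃ χ, (χ = χ₀ ∨ χ = χ₁) ∧ Chr8 χ ∧ χ (-1) = e := by
    rcases he with rfl | rfl
    · exact ⟨χ₀, Or.inl rfl, h₀, e₀⟩
    · exact ⟨χ₁, Or.inr rfl, h₁, e₁⟩
  refine ⟨χ, hχ, fun ε hε => ?_⟩
  obtain ⟨r₁, hr₁⟩ := D.cont (min ε (1 / 2)) (by positivity)
  obtain ⟨r₂, hr₂⟩ := hS (min ε (1 / 2)) (by positivity)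
  set s := max 3 (max r₁ r₂) with hs
  have L : Lev D N s e (min ε (1 / 2)) χ :=
    { hm := hm
      hs := le_max_left _ _
      hmN := hmN
      he := he
      hP := P.mono (D := D) hr₁ ((le_max_left _ _).trans (le_max_right _ _))
      hS := hr₂.mono ((le_max_right _ _).trans (le_max_right _ _))
      hε := min_le_right _ _
      hχ := hχ8
      hχe := hχe }
  obtain ⟨J, _, f, g, hf, hg⟩ := app3_lev L (by positivity)
  let φ := Fintype.equivFin J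
  refine ⟨s + 1, Fintype.card J, fun i => f (φ.symm i), fun i => g (φ.symm i),
    fun i => hf _, fun a ha => ?_⟩
  have h1 : ∑ i, (f (φ.symm i) a : E) * (g (φ.symm i)).eval (D.Nm a : E) =
      ∑ j, (f j a : E) * (g j).eval (D.Nm a : E) :=
    φ.symm.sum_comp fun j => (f j a : E) * (g j).eval (D.Nm a : E)
  rw [h1]
  exact (hg a ha).trans_le (min_le_left _ _)

end Dat

end

end Vale.Agent.P022.H749
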